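import Vale.Agent.P270N.Defs
import Vale.Agent.P281Z.Pb.Api

/-!
# P270N: the embedding
-/

open scoped Manifold ContDiff Topology
open Set Filter
open Vale.Agent.P272.K Vale.Agent.P285.H281.FD Vale.Agent.P281Z Vale.Agent.P277
open Vale.Agent.P277Z (Hol)
open Vale.Agent.P285L.St

set_option linter.all false

noncomputable section

namespace Vale.Agent.P270N

namespace EmbH

theorem cont {X : CSp} {f : X.pt → ℂ} {x : X.pt} (hf : X.Hol f x) : ContinuousAt f x := by
  obtain ⟨N, k, V, Ω, h, φ, hx, M⟩ := X.model x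
  obtain ⟨G, h1, h2⟩ := (M.hol x hx f).1 hf
  have k : ContinuousOn φ V := continuousOn_iff_continuous_restrict.2 M.emb.continuous
  exact (h1.continuousAt.comp (k.continuousAt (M.isOpen.mem_nhds hx))).congr h2.symm

end EmbH

/-- **EMB** -/
theorem emb : EMB := by
  intro r P X A S hA
  choose k hk using hA.lb.cover
  have nz : ∀ i x, x ∈ A.U i → (fun a => S a i x : Cm (r + 1)) ≠ 0 := fun i x hx e =>
    let ⟨a, ha⟩ := hA.free x i hx
    ha (congrFun e a)
  have em : Em P A S fun x => P.pt fun a => S a (k x) x := fun i x hx => by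
    show P.pt _ = _
    rw [← P.pt_smul (hA.lb.ne_zero _ _ x (hk x) hx) (nz i x hx)]
    exact congrArg _ (funext fun a => (hA.sec a).change _ _ x trivial (hk x) hx)
  generalize (fun x => P.pt fun a => S a (k x) x) = ι at em
  have near : ∀ x, ∀ᶠ y in 𝓝 x, y ∈ A.U (k x) := fun x => (hA.lb.isOpen _).mem_nhds (hk x)
  have hc : Continuous ι := continuous_iff_continuousAt.2 fun x =>
    (ContinuousAt.comp (f := fun y a => S a (k x) y) (P.cont _ (nz _ x (hk x)))
      (continuousAt_pi.2 fun a => EmbH.cont ((hA.sec a).holo _ x trivial (hk x)))).congr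
      ((near x).mono fun y hy => (em _ y hy).symm)
  have hi : Function.Injective ι := fun x x' e => by
    by_contra ne
    obtain ⟨a, b, h⟩ := hA.sep x x' _ _ (Ne.symm ne) (hk x) (hk x')
    rw [em _ x (hk x), em _ x' (hk x'), P.pt_eq_iff (nz _ x (hk x)) (nz _ x' (hk x'))] at e
    obtain ⟨c, e⟩ := e
    have e1 : S a (k x) x = c * S a (k x') x' := congrFun e a
    have e2 : S b (k x) x = c * S b (k x') x' := congrFun e b
    exact h (by rw [e1, e2]; ring)
  refine ⟨ι, em, fun L hL => ⟨(hc.isClosedEmbedding hi).isEmbedding, inferInstance, hL.isOpen,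
    hL.cover, fun i j x hi hj => ?_, hL.ne_zero, hL.cocycle⟩⟩
  obtain ⟨a, ha⟩ := hA.free x _ (hk x)
  obtain ⟨G, g1, g2⟩ := hA.germ x _ a (hk x) ha _ (hL.holo i j x hi hj)
  obtain ⟨h, hh⟩ := P.lb.cover (ι x)
  have rat : ∀ y ∈ A.U (k x), ι y ∈ P.H.U h → (fun b => P.x h (ι y) b / P.x h (ι y) a) =
      fun b => S b (k x) y / S a (k x) y := fun y hy hy' => by
    rw [em _ y hy] at hy' ⊢
    exact funext fun b => P.ratio (nz _ y hy) hy' b a
  have a0 : P.x h (ι x) a ≠ 0 := by
    have e := em _ x (hk x)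
    rw [e] at hh ⊢
    exact (P.x_ne_iff (nz _ x (hk x)) hh a).2 ha
  refine ⟨fun p => G fun b => P.x h p b / P.x h p a, fun e he => ?_, ?_⟩
  · refine AnalyticAt.comp (g := G) (f := fun z b => P.x h (e.symm z) b / P.x h (e.symm z) a) ?_
      (analyticAt_pi_iff.2 fun b => ((P.xhol hh b).div (P.xhol hh a) a0) e he)
    simp only [he.left_inv]
    rw [rat x (hk x) hh]
    exact g1
  · filter_upwards [g2, near x, hc.continuousAt.eventually (lb_near P.lb hh)] with y k1 k2 k3
    rw [k1, rat y k2 k3]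

end Vale.Agent.P270N
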