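import Vale.Agent.P270N.Defs
import Vale.Agent.P281Z.Mf.Api
import Vale.Agent.P281Z.Sc.Bd

/-!
# P270N, row EMH: holomorphic maps to an embedded space
-/

open scoped Manifold ContDiff Topology
open Set Filter
open Vale.Agent.P272.K Vale.Agent.P285.H281.FD Vale.Agent.P281Z Vale.Agent.P277
open Vale.Agent.P277Z (Hol at_chart)
open Vale.Agent.P285L.St

noncomputable section

namespace Vale.Agent.P270N

theorem emh : EMH := by
  intro r P X A S ι ρ W f hA hE hι
  have nz : ∀ k x, x ∈ A.U k → (fun a => S a k x) ≠ 0 := fun k x hx c =>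
    let ⟨a, ha⟩ := hA.free x k hx
    ha (congrFun c a)
  refine ⟨fun hf e y he => ?_, fun H y => ?_⟩
  · have cf : Continuous f := hι.continuous_iff.2 hf.cont
    have l : e.symm (e y) = y := e.left_inv he.2
    refine ⟨cf.continuousAt.comp (e.continuousAt_symm (e.map_source he.2)), fun h hh => ?_⟩
    replace hh : X.Hol h (f y) := l ▸ hh
    obtain ⟨k, hk⟩ := hA.lb.cover (f y)
    obtain ⟨a, ha⟩ := hA.free _ k hk
    obtain ⟨G, hG, k1⟩ := hA.germ _ k a hk ha h hh
    obtain ⟨b, hb⟩ := P.lb.cover (ι (f y))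
    have key : ∀ w, f w ∈ A.U k → ι (f w) ∈ P.H.U b →
        ∃ c : ℂ, c ≠ 0 ∧ ∀ a, P.x b (ι (f w)) a = c * S a k (f w) := fun w h1 h2 => by
      have h3 := P.xnz b _ h2
      rw [hE k _ h1] at h2 h3 ⊢
      obtain ⟨c, hc⟩ := P.x_pt _ (nz k _ h1) b h2
      exact ⟨c, fun c0 => h3 (by rw [hc, c0, zero_smul]), fun a => congrFun hc a⟩
    have k2 : ∀ᶠ w in 𝓝 y, (fun a' => P.x b (ι (f w)) a' / P.x b (ι (f w)) a) =
        fun a' => S a' k (f w) / S a k (f w) := by
      filter_upwards [cf.continuousAt.eventually ((hA.lb.isOpen k).mem_nhds hk),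
        hf.cont.continuousAt.eventually ((P.lb.isOpen b).mem_nhds hb)] with w h1 h2
      obtain ⟨c, c0, hc⟩ := key w h1 h2
      exact funext fun a' => by rw [hc, hc, mul_div_mul_left _ _ c0]
    have ho : ∀ a', Hol ρ (fun w => P.x b (ι (f w)) a') y := fun a' =>
      (hf.at y).hol (a := fun p => P.x b p a') (sec_hol (P.sec a') hb)
    have k3 : AnalyticAt ℂ (fun z a' => P.x b (ι (f (e.symm z))) a' / P.x b (ι (f (e.symm z))) a)
        (e y) := analyticAt_pi_iff.2 fun a' => (ho a' e he).div (ho a e he) (by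
      obtain ⟨c, c0, hc⟩ := key y hk hb
      rw [l, hc]
      exact mul_ne_zero c0 ha)
    refine (hG.comp_of_eq k3 (by rw [l]; exact k2.self_of_nhds)).congr ?_
    filter_upwards [at_ev he k2, at_ev he (cf.continuousAt.eventually k1)] with z h1 h2
    exact (congrArg G h1).trans h2.symm
  · have he := at_chart (n := ρ) y
    have l : (chartAt (Cm ρ) y).symm (chartAt (Cm ρ) y y) = y := (chartAt (Cm ρ) y).left_inv he.2
    have cf : ContinuousAt f y := ((H _ y he).1.comp ((chartAt (Cm ρ) y).continuousAt he.2)).congr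
      ((at_near he).mono fun w k => congrArg f ((chartAt (Cm ρ) y).left_inv k.2))
    obtain ⟨k, hk⟩ := hA.lb.cover (f y)
    have he' := at_chart (n := r) (ι (f y))
    have k1 : AnalyticAt ℂ (fun z a => S a k (f ((chartAt (Cm ρ) y).symm z)))
        (chartAt (Cm ρ) y y) := analyticAt_pi_iff.2 fun a =>
      (H _ y he).2 (S a k) (by beta_reduce; rw [l]; exact (hA.sec a).holo k _ (mem_univ _) hk)
    have k2 := P.an _ (nz k _ hk) (chartAt (Cm r) (ι (f y))) (by rw [← hE k _ hk]; exact he')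
    refine HolA.of_an (hι.continuous.continuousAt.comp cf) he he'
      ((k2.comp_of_eq k1 (by rw [l])).congr ?_)
    filter_upwards [at_ev he (cf.eventually ((hA.lb.isOpen k).mem_nhds hk))] with z h1
    exact congrArg (chartAt (Cm r) (ι (f y))) (hE k _ h1).symm

end Vale.Agent.P270N
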