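import Vale.Agent.P270N.Defs
import Vale.Agent.P281Z.Mf.An
import Vale.Agent.P272.K.INT.Part

/-!
# P270N, row MEX: metrics exist
-/

open scoped Manifold ContDiff Topology
open Set Filter
open Vale.Agent.P272.K Vale.Agent.P285.H281.FD Vale.Agent.P281Z
open Vale.Agent.P277Z (Hol at_chart)

noncomputable section

namespace Vale.Agent.P270N

namespace MexH

variable {n : ℕ} {V : Mf n}

theorem cm {G : V.X → ℂ} {x : V.X} (h : Hol n G x) (h0 : G x ≠ 0) :
    ContMDiffAt 𝓘(ℝ, Cm n) 𝓘(ℝ, ℝ) ∞ (fun y => Real.log (‖G y‖ ^ 2)) x := by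
  have := INT.isManifold_real n V.X
  have he := at_chart (n := n) x
  have h1 : ContDiffAt ℝ ∞ (fun z => G ((chartAt (Cm n) x).symm z)) (chartAt (Cm n) x x) :=
    ((h _ he).contDiffAt (n := ∞)).restrict_scalars ℝ
  have h2 := (h1.norm_sq ℂ).log (by
    rw [he.left_inv]
    exact pow_ne_zero _ (norm_ne_zero_iff.2 h0))
  have h3 : ContMDiffAt 𝓘(ℝ, Cm n) 𝓘(ℝ, Cm n) ∞ (chartAt (Cm n) x) x :=
    (contMDiffOn_of_mem_maximalAtlas (IsManifold.subset_maximalAtlas he.1)).contMDiffAt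
      ((chartAt (Cm n) x).open_source.mem_nhds he.2)
  refine ((contMDiffAt_iff_contDiffAt.2 h2).comp x h3).congr_of_eventuallyEq ?_
  filter_upwards [at_near he] with y k1
  simp only [Function.comp_apply, k1.left_inv]

/-- the germ of `log |G|²` is the germ of a smooth function -/
theorem germ {G : V.X → ℂ} {x : V.X} (h : Hol n G x) (h0 : G x ≠ 0) :
    ∃ Ψ : V.X → ℝ, ContMDiff 𝓘(ℝ, Cm n) 𝓘(ℝ, ℝ) ∞ Ψ ∧
      ∀ᶠ y in 𝓝 x, Ψ y = Real.log (‖G y‖ ^ 2) := by
  have := INT.isManifold_real n V.X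
  have h1 : ∀ᶠ y in 𝓝 x, Hol n G y ∧ G y ≠ 0 := h.near.and (h.continuousAt.eventually_ne h0)
  obtain ⟨C, c1, c2, c3⟩ := exists_mem_nhds_isClosed_subset h1.eventually_nhds
  obtain ⟨Ψ, hΨ⟩ := exists_contMDiffMap_forall_mem_convex_of_local (n := ⊤) 𝓘(ℝ, Cm n)
    (t := fun y : V.X => {r : ℝ | y ∈ C → r = Real.log (‖G y‖ ^ 2)}) (fun y => by
      intro a ha b hb s t _ _ st hy
      rw [ha hy, hb hy, ← add_smul, st, one_smul]) fun y => by
      by_cases hy : y ∈ C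
      · exact ⟨_, c3 hy, fun y => Real.log (‖G y‖ ^ 2),
          fun z k => (cm k.1 k.2).contMDiffWithinAt, fun _ _ _ => rfl⟩
      · exact ⟨_, c2.isOpen_compl.mem_nhds hy, fun _ => 0, contMDiffOn_const,
          fun z k l => (k l).elim⟩
  exact ⟨Ψ, Ψ.contMDiff, mem_of_superset c1 fun y k => hΨ y k⟩

end MexH

open MexH in
/-- **MEX** -/
theorem mex : MEX := by
  intro n V X _ ι B h
  have := INT.isManifold_real n V.X
  have := h.cpt
  choose O hO hU using fun a => h.emb.isInducing.isOpen_iff.1 (h.isOpen a)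
  obtain ⟨ρ, hρ⟩ := SmoothPartitionOfUnity.exists_isSubordinate 𝓘(ℝ, Cm n)
    (isCompact_range h.emb.continuous).isClosed O hO (by
      rintro _ ⟨x, rfl⟩
      obtain ⟨a, ha⟩ := h.cover x
      exact mem_iUnion.2 ⟨a, show x ∈ ι ⁻¹' O a from hU a ▸ ha⟩)
  have hs : ∀ a x, ι x ∈ tsupport (ρ a) → x ∈ B.U a := fun a x k => hU a ▸ hρ a k
  refine ⟨fun i y => ∑ᶠ a, ρ a (ι y) • Real.log (‖B.g i a y‖ ^ 2), fun i x hx => ?_,
    fun i j x hi hj => ?_⟩
  · have ex : ∀ a, ∃ Ψ : V.X → ℝ, ContMDiff 𝓘(ℝ, Cm n) 𝓘(ℝ, ℝ) ∞ Ψ ∧ (x ∈ B.U a →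
        ∀ᶠ y in 𝓝 x, Ψ (ι y) = Real.log (‖B.g i a y‖ ^ 2)) := fun a => by
      by_cases ha : x ∈ B.U a
      · obtain ⟨G, g1, g2⟩ := h.holo i a x hx ha
        obtain ⟨Ψ, p1, p2⟩ := germ g1 (g2.self_of_nhds ▸ h.ne_zero i a x hx ha)
        refine ⟨Ψ, p1, fun _ => ?_⟩
        filter_upwards [h.emb.continuous.continuousAt.eventually p2, g2] with y k1 k2
        rw [k1, k2]
      · exact ⟨0, contMDiff_const, fun k => (ha k).elim⟩
    choose Ψ p1 p2 using ex
    refine ⟨fun z => ∑ᶠ a, ρ a z • Ψ a z,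
      INT.smoothFn_of_contMDiff (ρ.contMDiff_finsum_smul fun a z _ => p1 a z), ?_⟩
    filter_upwards [h.emb.continuous.continuousAt.eventually
      (ρ.eventually_fintsupport_subset (ι x)), (ρ.fintsupport (ι x)).eventually_all.2
        fun a ha => p2 a (hs a x ((ρ.mem_fintsupport_iff _ _).1 ha))] with y k1 k2
    refine finsum_congr fun a => ?_
    by_cases k : ρ a (ι y) = 0
    · rw [k, zero_smul, zero_smul]
    · rw [k2 a (k1 ((ρ.mem_fintsupport_iff _ _).2 (subset_tsupport _ k)))]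
  · have fin : ∀ u : B.ι → ℝ, Function.HasFiniteSupport fun a => ρ a (ι x) • u a := fun u =>
      (ρ.locallyFinite.point_finite (ι x)).subset fun a k l => k (by
        show ρ a (ι x) • u a = 0
        rw [show ρ a (ι x) = 0 from l, zero_smul])
    have e1 : ∑ᶠ a, ρ a (ι x) • Real.log (‖B.g i j x‖ ^ 2) = Real.log (‖B.g i j x‖ ^ 2) := by
      rw [← finsum_smul, ρ.sum_eq_one ⟨x, rfl⟩, one_smul]
    rw [← e1, ← finsum_add_distrib (fin _) (fin _)]
    refine finsum_congr fun a => ?_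
    by_cases k : ρ a (ι x) = 0
    · simp [k]
    · have ha := hs a x (subset_tsupport _ k)
      rw [← smul_add, ← h.cocycle i j a x hi hj ha, norm_mul, mul_pow, Real.log_mul
        (pow_ne_zero _ (norm_ne_zero_iff.2 (h.ne_zero i j x hi hj)))
        (pow_ne_zero _ (norm_ne_zero_iff.2 (h.ne_zero j a x hj ha))), add_comm]

end Vale.Agent.P270N
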