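import Vale.Agent.P270N.Defs
import Vale.Agent.P277Z.Ps.Psd
import Vale.Agent.P281Z.Hm.Calc
import Vale.Agent.P284Z.F0.Levi

/-!
# P270N, row OUT
-/

open scoped Manifold ContDiff Topology Matrix ComplexOrder
open Set Filter
open Vale.Agent.P272.K Vale.Agent.P285.H281.FD Vale.Agent.P281Z Vale.Agent.P277
open Vale.Agent.P277Z (at_chart)
open Vale.Agent.P277Z.Ps (two sm_log psd_log sq_pos)
open Vale.Agent.P277.HD (pull)
open Vale.Agent.P285L.St

noncomputable section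

namespace Vale.Agent.P270N.O71

variable {n r : ℕ} {z : Cm n}

/-- smooth with a semipositive complex Hessian -/
def Q (u : Cm n → ℝ) (z : Cm n) : Prop := ContDiffAt ℝ ∞ u z ∧ (cHess u z).PosSemidef

theorem Q.add {u v : Cm n → ℝ} (h : Q u z) (k : Q v z) : Q (fun w => u w + v w) z :=
  ⟨h.1.add k.1, by rw [C2.cHess_add (two h.1) (two k.1)]; exact h.2.add k.2⟩

theorem Q.mul {u : Cm n → ℝ} {c : ℝ} (hc : 0 ≤ c) (h : Q u z) : Q (fun w => c * u w) z :=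
  ⟨contDiffAt_const.mul h.1, by
    rw [C2.cHess_const_mul c (two h.1)]; exact h.2.smul (Complex.zero_le_real.2 hc)⟩

theorem q_log {ι : Type} {F : ι → Cm n → ℂ} [Fintype ι] (h : ∀ i, AnalyticAt ℂ (F i) z) (h0 : ∃ i, F i z ≠ 0) :
    Q (fun w => Real.log (∑ i, ‖F i w‖ ^ 2)) z := ⟨sm_log h h0, psd_log h h0⟩

theorem q_one {F : Cm n → ℂ} (h : AnalyticAt ℂ F z) (h0 : F z ≠ 0) :
    Q (fun w => Real.log (‖F w‖ ^ 2)) z := by
  simpa using q_log (ι := Unit) (F := fun _ => F) (fun _ => h) ⟨(), h0⟩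

theorem q_comp {u : Cm r → ℝ} {T : Cm n → Cm r} (hT : AnalyticAt ℂ T z) (h : Q u (T z)) :
    Q (fun w => u (T w)) z := by
  have s : ContDiffAt ℝ ∞ (fun w => u (T w)) z :=
    h.1.comp z (hT.restrictScalars (𝕜 := ℝ)).contDiffAt
  refine ⟨s, (P284Z.cHess_psd_iff (two s)).2 fun ξ => ?_⟩
  rw [Hm.levi_comp (two h.1) hT]
  exact (P284Z.cHess_psd_iff (two h.1)).1 h.2 _

theorem lg {a b : ℂ} (ha : a ≠ 0) (hb : b ≠ 0) (m : ℕ) :
    Real.log (‖a ^ m * b‖ ^ 2) = m * Real.log (‖a‖ ^ 2) + Real.log (‖b‖ ^ 2) := by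
  rw [norm_mul, mul_pow, norm_pow, ← pow_mul, mul_comm m 2, pow_mul,
    Real.log_mul (by positivity) (by positivity), Real.log_pow (‖a‖ ^ 2) m]

theorem lgs {k : ℕ} {c : ℂ} {v : Cm k} (hc : c ≠ 0) (hv : v ≠ 0) :
    Real.log (∑ a, ‖c * v a‖ ^ 2) = Real.log (‖c‖ ^ 2) + Real.log (∑ a, ‖v a‖ ^ 2) := by
  have h := sq_pos (n := 0) (f := fun a _ => v a) (z := 0) (Function.ne_iff.1 hv)
  rw [← Real.log_mul (by positivity) h.ne', Finset.mul_sum]
  simp only [norm_mul, mul_pow]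

end Vale.Agent.P270N.O71

namespace Vale.Agent.P270N

open O71

theorem out71 (smx : SMX) : OUT := by
  intro r P X A S ι L n hA em hL al po δ hδ
  obtain ⟨m, m0, hm⟩ : ∃ m : ℕ, (0 : ℝ) < m ∧ (m : ℝ)⁻¹ < δ := by
    obtain ⟨m₀, hm⟩ := exists_nat_one_div_lt hδ
    exact ⟨m₀ + 1, Nat.cast_pos.2 m₀.succ_pos, by rwa [Nat.cast_succ, ← one_div]⟩
  obtain ⟨φ, mt, ps⟩ := po m
  have hι := al.emb.continuous
  choose h hh using P.lb.cover
  let F : P.H.ι → P.P.X → ℝ := fun b p => Real.log (∑ a, ‖P.x b p a‖ ^ 2)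
  have K : ∀ i j b x, x ∈ L.U i → x ∈ L.U j → ι x ∈ P.H.U b →
      (m : ℝ)⁻¹ * (φ (i, h (ι x)) x - F (h (ι x)) (ι x)) =
        (m : ℝ)⁻¹ * (φ (j, b) x - F b (ι x)) + Real.log (‖L.g i j x‖ ^ 2) := by
    intro i j b x hi hj hb
    have g0 := P.lb.ne_zero _ _ _ (hh (ι x)) hb
    have e1 : φ (i, h (ι x)) x = φ (j, b) x +
        Real.log (‖L.g i j x ^ m * P.H.g (h (ι x)) b (ι x)‖ ^ 2) :=
      mt.change (i, h (ι x)) (j, b) x ⟨hi, hh _⟩ ⟨hj, hb⟩
    have e2 : F (h (ι x)) (ι x) = Real.log (‖P.H.g (h (ι x)) b (ι x)‖ ^ 2) + F b (ι x) := by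
      rw [← lgs g0 (P.xnz b _ hb)]
      exact congrArg Real.log (Finset.sum_congr rfl fun a _ => by
        rw [(P.sec a).change _ b _ (hh _) hb])
    rw [e1, e2, lg (hL.ne_zero i j x hi hj) g0]
    field_simp
    ring
  have Fs : ∀ b (e : Chart r P.P.X) p, At e p → p ∈ P.H.U b →
      ContDiffAt ℝ ∞ (fun z => F b (e.symm z)) (e p) := fun b e p he hb =>
    sm_log (f := fun a z => P.x b (e.symm z) a) (fun a => ((P.sec a).holo b e p he hb).analyticAt)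
      (by rw [e.left_inv he.2]; exact Function.ne_iff.1 (P.xnz b p hb))
  refine ⟨fun i x => (m : ℝ)⁻¹ * (φ (i, h (ι x)) x - F (h (ι x)) (ι x)), fun i x hi => ?_,
    fun i j x hi hj => K i j _ x hi hj (hh _), fun i k g z hg _ hi hk => ?_⟩
  · obtain ⟨Ψ, s, ev⟩ := mt.smooth (i, h (ι x)) x ⟨hi, hh _⟩
    refine smx r P X A S ι _ (fun p => (m : ℝ)⁻¹ * (Ψ p - F (h (ι x)) p)) x hA em
      (fun e he => ?_) ?_
    · filter_upwards [at_ev he ((at_near he).and ((P.lb.isOpen _).mem_nhds (hh (ι x)))),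
        e.eventually_right_inverse' he.2] with z h1 h2
      rw [← h2]
      exact contDiffAt_const.mul ((s e _ h1.1).sub (Fs _ e _ h1.1 h1.2))
    · filter_upwards [ev, (hL.isOpen i).mem_nhds hi,
        hι.continuousAt.eventually ((P.lb.isOpen _).mem_nhds (hh (ι x)))] with y h1 h2 h3
      have h4 : L.g i i y = 1 := mul_left_cancel₀ (hL.ne_zero i i y h2 h2) (by
        rw [hL.cocycle i i i y h2 h2 h2, mul_one])
      rw [K i i _ y h2 h2 h3, h1, h4]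
      simp
  · obtain ⟨⟨j, b⟩, Ψ, ⟨hj, hb⟩, ⟨s, ev⟩, pos⟩ := ps (g z) (mem_univ _)
    have hb' : ι (g z) ∈ P.H.U b := hb
    have hS : ∀ a, AnalyticAt ℂ (fun w => S a k (g w)) z := fun a =>
      hg.2 _ ((hA.sec a).holo k _ (mem_univ _) hk)
    obtain ⟨a₀, h0⟩ := hA.free _ k hk
    have v0 : (fun a => S a k (g z)) ≠ 0 := Function.ne_iff.2 ⟨a₀, h0⟩
    have ez := em k _ hk
    have he : At (chartAt (Cm r) (ι (g z))) (ι (g z)) := at_chart _
    generalize chartAt (Cm r) (ι (g z)) = e at he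
    have hT : AnalyticAt ℂ (fun w => e (P.pt fun a => S a k (g w))) z :=
      AnalyticAt.comp (g := fun v => e (P.pt v)) (f := fun w a => S a k (g w))
        (P.an _ v0 e (ez ▸ he)) (analyticAt_pi_iff.2 hS)
    have hx : AnalyticAt ℂ (fun w => P.x b (e.symm (e (P.pt fun a => S a k (g w)))) a₀) z :=
      AnalyticAt.comp (g := fun u => P.x b (e.symm u) a₀)
        (f := fun w => e (P.pt fun a => S a k (g w)))
        (by rw [← ez]; exact ((P.sec a₀).holo b e _ he hb').analyticAt) hT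
    have nb : ∀ᶠ w in 𝓝 z, (g w ∈ L.U i ∧ g w ∈ L.U j) ∧ (g w ∈ A.U k ∧ S a₀ k (g w) ≠ 0) ∧
        (ι (g w) ∈ P.H.U b ∧ At e (ι (g w))) ∧ φ (j, b) (g w) = Ψ (ι (g w)) :=
      ((hg.1.eventually ((hL.isOpen i).mem_nhds hi)).and
        (hg.1.eventually ((hL.isOpen j).mem_nhds hj))).and
      (((hg.1.eventually ((hA.lb.isOpen k).mem_nhds hk)).and
        ((hS a₀).continuousAt.eventually_ne h0)).and
      (((hι.continuousAt.comp hg.1).eventually
        (Eventually.and ((P.lb.isOpen b).mem_nhds hb') (at_near he))).and (hg.1.eventually ev)))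
    have cc : ∀ᶠ w in 𝓝 z, ∃ c : ℂ, c ≠ 0 ∧ P.x b (ι (g w)) = c • fun a => S a k (g w) :=
      nb.mono fun w ⟨_, ⟨h1, h2⟩, ⟨h3, _⟩, _⟩ => by
        have h4 := em k _ h1
        obtain ⟨c, hc⟩ := P.x_pt _ (Function.ne_iff.2 ⟨a₀, h2⟩) b (h4 ▸ h3)
        rw [← h4] at hc
        exact ⟨c, fun h5 => P.xnz b _ h3 (by rw [hc, h5, zero_smul]), hc⟩
    have x0 : P.x b (e.symm (e (P.pt fun a => S a k (g z)))) a₀ ≠ 0 := by
      obtain ⟨c, c0, hc⟩ := cc.self_of_nhds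
      rw [← ez, e.left_inv he.2, hc]
      exact mul_ne_zero c0 h0
    have q1 : Q (fun w => Ψ (e.symm (e (P.pt fun a => S a k (g w))))) z :=
      q_comp (u := fun u => Ψ (e.symm u)) hT (by
        rw [← ez]; exact ⟨s e _ he, (pos () e he (mem_univ _)).posSemidef⟩)
    have q := (((q1.add (q_one ((hS a₀).div hx x0) (div_ne_zero h0 x0))).mul (inv_pos.2 m0).le).add
      (q_one (hg.2 _ (hL.holo i j _ hi hj)) (hL.ne_zero i j _ hi hj))).add
      ((q_log hS ⟨a₀, h0⟩).mul (sub_nonneg.2 hm.le))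
    refine (C2.cHess_congr ?_) ▸ q.2
    filter_upwards [nb, cc] with w ⟨⟨h1, h2⟩, ⟨h3, h4⟩, ⟨h5, h6⟩, h7⟩ ⟨c, c0, hc⟩
    have h8 : F b (ι (g w)) = Real.log (‖c‖ ^ 2) + Real.log (∑ a, ‖S a k (g w)‖ ^ 2) := by
      rw [← lgs c0 (Function.ne_iff.2 ⟨a₀, h4⟩)]
      simp only [F, hc, Pi.smul_apply, smul_eq_mul]
    rw [K i j b _ h1 h2 h5, h7, h8]
    simp only [Pi.div_apply, Function.comp_apply]
    rw [← em k _ h3, e.left_inv h6.2, hc, Pi.smul_apply, smul_eq_mul, div_mul_cancel_right₀ h4,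
      norm_inv, inv_pow, Real.log_inv]
    ring

end Vale.Agent.P270N
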