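import Vale.Agent.P270N.Defs
import Vale.Agent.P280X.Kl.Step
import Vale.Agent.P280X.Kl.Maxg84

/-!
# P270N: pull backs and products (rows PLB, ALG)
-/

open scoped Manifold ContDiff Topology Matrix ComplexOrder
open Set Filter
open Vale.Agent.P272.K Vale.Agent.P285.H281.FD Vale.Agent.P281Z Vale.Agent.P277
open Vale.Agent.P277Z (Hol)
open Vale.Agent.P277Z.Slc (triv)
open Vale.Agent.P277.HD (pull)
open Vale.Agent.P280X.Kl

namespace Vale.Agent.P270N

theorem alg84 : ALG := fun _ _ _ _ ι L H i al lH =>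
  { emb := al.emb
    cpt := al.cpt
    isOpen := fun p => (al.isOpen p.1).inter ((lH.isOpen p.2).preimage al.emb.continuous)
    cover := fun x =>
      let ⟨a, ha⟩ := al.cover x
      let ⟨b, hb⟩ := lH.cover (ι x)
      ⟨(a, b), ha, hb⟩
    holo := fun p q x hp hq =>
      let ⟨G, g1, g2⟩ := al.holo p.1 q.1 x hp.1 hq.1
      ⟨fun y => G y ^ i * H.g p.2 q.2 y, (g1.pow i).mul (lb_hol lH hp.2 hq.2),
        g2.mono fun y hy => congrArg (fun t => t ^ i * H.g p.2 q.2 (ι y)) hy⟩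
    ne_zero := fun p q x hp hq =>
      mul_ne_zero (pow_ne_zero _ (al.ne_zero _ _ x hp.1 hq.1)) (lH.ne_zero _ _ _ hp.2 hq.2)
    cocycle := fun p q r x hp hq hr => by
      show L.g p.1 q.1 x ^ i * H.g p.2 q.2 (ι x) * (L.g q.1 r.1 x ^ i * H.g q.2 r.2 (ι x)) =
        L.g p.1 r.1 x ^ i * H.g p.2 r.2 (ι x)
      rw [← al.cocycle _ _ _ x hp.1 hq.1 hr.1, ← lH.cocycle _ _ _ _ hp.2 hq.2 hr.2]
      ring }

theorem plb84 : PLB := by
  intro n V X _ ι B ρ W f al hf
  have cf : Continuous f := al.emb.continuous_iff.2 hf.cont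
  have lB : IsLB ρ (pull f B) :=
    ⟨fun i => (al.isOpen i).preimage cf, fun w => al.cover (f w), fun i j e w he hi hj =>
      let ⟨G, g1, g2⟩ := al.holo i j (f w) hi hj
      ((((hf.at w).hol g1).congr ((cf.continuousAt.eventually g2).mono fun _ h => h.symm))
        e he).contDiffAt, fun i j w => al.ne_zero i j (f w),
      fun i j k w => al.cocycle i j k (f w)⟩
  have tm : ∀ {Ψ : V.X → ℝ}, SmoothFn (n := n) Ψ → IsMet n (triv V.X) fun _ => Ψ := fun h =>
    ⟨fun _ e x he _ => h e x he, fun _ _ x _ _ => by simp [triv]⟩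
  refine ⟨lB, fun ψ m => ?_⟩
  have ev : ∀ {i Ψ w}, Rt V ι (ψ i) Ψ (f w) → ∀ e : Chart ρ W.X, At e w →
      (fun z => ψ i (f (e.symm z))) =ᶠ[𝓝 (e w)] fun z => Ψ (ι (f (e.symm z))) := fun h e he =>
    at_ev he (cf.continuousAt.eventually h.2)
  have mB : IsMet ρ (pull f B) fun i y => ψ i (f y) :=
    ⟨fun i e w he hi =>
      let ⟨Ψ, h⟩ := m.smooth i (f w) hi
      ((StepH.pl hf (tm h.1)).1.smooth () e w he trivial).congr_of_eventuallyEq (ev h e he),
      fun i j w => m.change i j (f w)⟩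
  refine ⟨mB, fun w im ⟨j, Ψ, hj, h, p⟩ i e he hi => ?_⟩
  have k := (StepH.pl hf (tm h.1)).2 w im p () e he trivial
  have g := (lB.holo i j e w he hi hj).analyticAt
  have g0 : (pull f B).g i j (e.symm (e w)) ≠ 0 := by
    rw [e.left_inv he.2]
    exact lB.ne_zero i j w hi hj
  rw [C2.cHess_congr (v := fun z => ψ j (f (e.symm z)) + Real.log (‖(pull f B).g i j (e.symm z)‖ ^ 2))
    (at_ev he (P := fun y => ψ i (f y) = ψ j (f y) + Real.log (‖(pull f B).g i j y‖ ^ 2))
      (((lb_near lB hi).and (lb_near lB hj)).mono fun y hy => mB.change i j y hy.1 hy.2)),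
    C2.cHess_add (M84.two (mB.smooth j e w he hj)) (M84.two (M84.lg g g0)),
    cHess_log_norm_sq g.contDiffAt g0, add_zero, C2.cHess_congr (ev h e he)]
  exact k

end Vale.Agent.P270N
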