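import Vale.Agent.P270N.Defs

/-!
# P270N: restrictions of smooth functions (row SMX)
-/

open scoped Manifold ContDiff Topology
open Set Filter
open Vale.Agent.P272.K Vale.Agent.P285.H281.FD Vale.Agent.P281Z Vale.Agent.P277
open Vale.Agent.P285L.St

noncomputable section

namespace Vale.Agent.P270N

namespace SmxH

variable {X : CSp} {N k : ℕ} {V : Set X.pt} {Ω : Set (Cm N)} {h : Fin k → Cm N → ℂ}
  {φ : X.pt → Cm N} {x : X.pt} {u : X.pt → ℝ}

theorem sm_of (hM : IsModel X.Hol V Ω h φ) (hx : x ∈ V) {ψ : Cm N → ℝ}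
    (h1 : ∀ᶠ z in 𝓝 (φ x), ContDiffAt ℝ ∞ ψ z) (h2 : ∀ᶠ y in 𝓝 x, u y = ψ (φ y)) :
    Sm X u x := by
  have h3 : ∀ᶠ y : V in 𝓝 ⟨x, hx⟩, u y = ψ (φ y) :=
    continuousAt_subtype_val.eventually (p := fun y => u y = ψ (φ y)) h2
  rw [hM.emb.isInducing.nhds_eq_comap, eventually_comap] at h3
  obtain ⟨Ω', k1, k2, k3⟩ := eventually_nhds_iff.1 (h1.and h3)
  have hc : ContinuousOn φ V := continuousOn_iff_continuous_domRestrict.2 hM.emb.continuous
  refine ⟨N, k, V ∩ φ ⁻¹' Ω', Ω ∩ Ω', h, φ, ψ, ⟨hx, k3⟩,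
    ⟨hc.isOpen_inter_preimage hM.isOpen k2, hM.isOpen'.inter k2, fun i z hz => hM.holo i z hz.1, ?_,
      hM.emb.comp (Topology.IsEmbedding.inclusion inter_subset_left), fun x hx => hM.hol x hx.1⟩,
    fun z hz => (k1 z hz.2).1, fun y hy => (k1 _ hy.2).2 ⟨y, hy.1⟩ rfl⟩
  rw [image_inter_preimage, hM.image]
  ext z
  exact ⟨fun h => ⟨⟨h.1.1, h.2⟩, h.1.2⟩, fun h => ⟨⟨h.1.1, h.2⟩, h.1.2⟩⟩

end SmxH

/-- **row SMX** -/
theorem smx : SMX := by
  intro r P X A S ι u Ψ x hA hι h1 h2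
  obtain ⟨N, k, V, Ω, h, φ, hx, hM⟩ := X.model x
  obtain ⟨i, hi⟩ := hA.lb.cover x
  choose g g1 g2 using fun a => (hM.hol x hx _).1 ((hA.sec a).holo i x trivial hi)
  have a1 : AnalyticAt ℂ (fun z a => g a z) (φ x) := AnalyticAt.pi g1
  have a2 : ∀ᶠ y in 𝓝 x, (fun a => S a i y) = fun a => g a (φ y) :=
    (eventually_all.2 g2).mono fun y hy => funext hy
  have a3 : (fun a => g a (φ x)) ≠ 0 := by
    obtain ⟨a, ha⟩ := hA.free x i hi
    exact fun c => ha (congrFun (a2.self_of_nhds.trans c) a)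
  have a4 : ι x = P.pt fun a => g a (φ x) := (hι i x hi).trans (congrArg P.pt a2.self_of_nhds)
  have he : At (chartAt (Cm r) (ι x)) (ι x) := ⟨chart_mem_atlas _ _, mem_chart_source _ _⟩
  generalize chartAt (Cm r) (ι x) = e at he
  have h3 := h1 e he
  rw [a4] at he h3
  have a5 := (P.an _ a3 e he).comp (f := fun z a => g a z) a1
  have a6 := (P.cont _ a3).comp (f := fun z a => g a z) a1.continuousAt
  refine SmxH.sm_of hM hx (ψ := fun z => Ψ (P.pt fun a => g a z)) ?_ ?_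
  · filter_upwards [a5.eventually_analyticAt, a5.continuousAt.eventually h3,
      (a6.eventually (e.open_source.mem_nhds he.2)).eventually_nhds] with z k1 k2 k3
    exact (k2.comp z ((k1.contDiffAt (n := ∞)).restrict_scalars ℝ)).congr_of_eventuallyEq
      (k3.mono fun w hw => congrArg Ψ (e.left_inv hw).symm)
  · filter_upwards [h2, a2, (hA.lb.isOpen i).mem_nhds hi] with y k1 k2 k3
    rw [k1, hι i y k3, k2]

end Vale.Agent.P270N
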