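import Vale.Agent.P270N.Kl
import Vale.Agent.P270N.Plb84
import Vale.Agent.P270N.Mex
import Vale.Agent.P270N.Inx
import Vale.Agent.P270N.Emb
import Vale.Agent.P270N.Emh
import Vale.Agent.P270N.Smx
import Vale.Agent.P270N.Out71
import Vale.Agent.P281Z.Pb.Ps

/-!
# P270N: nef on curves implies nef in the sense of metrics, on a projective variety
-/

noncomputable section

namespace Vale.Agent.P270N

theorem nfx : NFX :=
  nfx_of klm P281Z.Pb.psex plb84 (inx_of plb84 alg84 mex (stx plb84)) emb emh (out71 smx)

end Vale.Agent.P270N
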