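import Vale.Agent.P270N.All
import Vale.Agent.P285L.Cn.Stmt

/-!
# P270N: the same for the definitions of block CN
-/

open scoped Manifold ContDiff Topology
open Filter
open Vale.Agent.P272.K Vale.Agent.P285.H281.FD Vale.Agent.P281Z Vale.Agent.P277
open Vale.Agent.P285L.St

noncomputable section

namespace Vale.Agent.P270N

theorem setup_of {n : ℕ} {Y : Mf n} {X : CSp} {L : Bd X.pt} {μ : Y.X → X.pt} {E : Bd Y.X}
    {s : E.ι → Y.X → ℂ} (hc : ConnectedSpace Y.X) (h : SetupC n X μ E s) (hL : IsLBx X L)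
    (hn : NefC X L) : Setup n X L μ E s := by
  refine nfx n Y X L μ E s hc ⟨h.two, h.normal, h.prj, hL, fun C _ _ _ _ _ _ f hf =>
    hn C f (continuous_iff_continuousAt.2 fun y => ?_) hf, h.div, h.res⟩
  have e := mem_chart_source (Cm 1) y
  refine (ContinuousAt.comp (f := chartAt (Cm 1) y) (hf _ y ⟨?_, e⟩).1
    ((chartAt (Cm 1) y).continuousAt e)).congr ?_
  · exact chart_mem_atlas _ y
  · filter_upwards [(chartAt (Cm 1) y).open_source.mem_nhds e] with z hz
    exact congrArg f ((chartAt (Cm 1) y).left_inv hz)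

end Vale.Agent.P270N
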