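import Vale.Agent.P270N.Stmt
import Vale.Agent.P280X.Kl.Defs
import Vale.Agent.P281Z.Pb.Defs

/-!
# P270N: the theorem of Kleiman on a singular projective variety (definitions, rows)
-/

open scoped Manifold ContDiff Topology Matrix ComplexOrder
open Set Filter
open Vale.Agent.P272.K Vale.Agent.P285.H281.FD Vale.Agent.P281Z Vale.Agent.P277
open Vale.Agent.P277Z (Hol)
open Vale.Agent.P277Z.Slc (triv)
open Vale.Agent.P277.HD (pull)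
open Vale.Agent.P280X.Kl
open Vale.Agent.P285L.St

noncomputable section

namespace Vale.Agent.P270N

section
variable {n : ℕ} (V : Mf n) {X : Type} [TopologicalSpace X] (ι : X → V.X)

/-- `B` is a line bundle on the compact subset `X` of `V` -/
structure Al (B : Bd X) : Prop where
  emb : Topology.IsEmbedding ι
  cpt : CompactSpace X
  isOpen : ∀ i, IsOpen (B.U i)
  cover : ∀ x, ∃ i, x ∈ B.U i
  holo : ∀ i j x, x ∈ B.U i → x ∈ B.U j →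
    ∃ G : V.X → ℂ, Hol n G (ι x) ∧ ∀ᶠ y in 𝓝 x, B.g i j y = G (ι y)
  ne_zero : ∀ i j x, x ∈ B.U i → x ∈ B.U j → B.g i j x ≠ 0
  cocycle : ∀ i j k x, x ∈ B.U i → x ∈ B.U j → x ∈ B.U k → B.g i j x * B.g j k x = B.g i k x

/-- `u` is near `x` the restriction of the smooth function `Ψ` -/
def Rt (u : X → ℝ) (Ψ : V.X → ℝ) (x : X) : Prop :=
  SmoothFn (n := n) Ψ ∧ ∀ᶠ y in 𝓝 x, u y = Ψ (ι y)

/-- a smooth metric -/
structure Mt (B : Bd X) (ψ : B.ι → X → ℝ) : Prop where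
  smooth : ∀ i x, x ∈ B.U i → ∃ Ψ, Rt V ι (ψ i) Ψ x
  change : ∀ i j x, x ∈ B.U i → x ∈ B.U j → ψ i x = ψ j x + Real.log (‖B.g i j x‖ ^ 2)

/-- the metric is positive at `x` -/
def Ps (B : Bd X) (ψ : B.ι → X → ℝ) (x : X) : Prop :=
  ∃ i Ψ, x ∈ B.U i ∧ Rt V ι (ψ i) Ψ x ∧ PosAt n (triv V.X) (fun _ => Ψ) (ι x)

/-- there is a metric which is positive along `Z` -/
def PO (B : Bd X) (Z : Set V.X) : Prop := ∃ ψ, Mt V ι B ψ ∧ ∀ x, ι x ∈ Z → Ps V ι B ψ x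

end

/-- `ι` is the map to the projective space given by the sections `S a` -/
def Em {r : ℕ} (P : PS r) {X : CSp} (A : Bd X.pt) (S : Fin (r + 1) → A.ι → X.pt → ℂ)
    (ι : X.pt → P.P.X) : Prop := ∀ k x, x ∈ A.U k → ι x = P.pt fun a => S a k x

/-- ROW PLB: pull backs -/
def PLB : Prop := ∀ (n : ℕ) (V : Mf n) (X : Type) [TopologicalSpace X] (ι : X → V.X) (B : Bd X)
  (ρ : ℕ) (W : Mf ρ) (f : W.X → X), Al V ι B → HolM ρ n (fun w => ι (f w)) →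
  IsLB ρ (pull f B) ∧ ∀ ψ, Mt V ι B ψ → IsMet ρ (pull f B) (fun i y => ψ i (f y)) ∧
    ∀ w, Imm ρ n (fun w => ι (f w)) w → Ps V ι B ψ (f w) →
      PosAt ρ (pull f B) (fun i y => ψ i (f y)) w

/-- ROW ALG -/
def ALG : Prop := ∀ (n : ℕ) (V : Mf n) (X : Type) [TopologicalSpace X] (ι : X → V.X) (L : Bd X)
  (H : Bd V.X) (i : ℕ), Al V ι L → IsLB n H → Al V ι ((L.pow i).mul (pull ι H))

/-- ROW MEX: metrics exist -/
def MEX : Prop := ∀ (n : ℕ) (V : Mf n) (X : Type) [TopologicalSpace X] (ι : X → V.X) (B : Bd X),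
  Al V ι B → ∃ ψ, Mt V ι B ψ

/-- ROW STX -/
def STX : Prop := ∀ (ρ n : ℕ) (W : Mf ρ) (V : Mf n) (X : Type) [TopologicalSpace X] (ι : X → V.X)
  (ν : W.X → X) (Z S : Set V.X) (B : Bd X) (M O : Bd W.X) (σ : O.ι → W.X → ℂ) (k : ℕ),
  Al V ι B → Rs (fun w => ι (ν w)) Z → Dc W (pull ν B) M O σ k →
  (∀ w, ι (ν w) ∈ Z → ¬ NZ O σ w) → (∀ w, ¬ NZ O σ w → ι (ν w) ∈ S) → PO V ι B S →
  PO V ι B (range (fun w => ι (ν w)) ∪ S ∩ Z)

/-- ROW INX -/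
def INX : Prop := ∀ (n : ℕ) (V : Mf n) (X : Type) [TopologicalSpace X] (ι : X → V.X) (L : Bd X)
  (H : Bd V.X) (i : ℕ), V.Prj → Al V ι L → IsLB n H → Pos n H →
  (∀ (ρ : ℕ) (W : Mf ρ) (f : W.X → X), ConnectedSpace W.X → W.Prj →
    HolM ρ n (fun w => ι (f w)) → Nf W (pull f L)) →
  ∀ d A, Cv V d A → A ⊆ range ι → PO V ι ((L.pow i).mul (pull ι H)) A

/-- ROW EMB: the embedding -/
def EMB : Prop := ∀ (r : ℕ) (P : PS r) (X : CSp) (A : Bd X.pt) (S : Fin (r + 1) → A.ι → X.pt → ℂ),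
  ProjEmb X A S → ∃ ι, Em P A S ι ∧ ∀ L, IsLBx X L → Al P.P ι L

/-- ROW EMH: holomorphic maps to `X` -/
def EMH : Prop := ∀ (r : ℕ) (P : PS r) (X : CSp) (A : Bd X.pt) (S : Fin (r + 1) → A.ι → X.pt → ℂ)
  (ι : X.pt → P.P.X) (ρ : ℕ) (W : Mf ρ) (f : W.X → X.pt), ProjEmb X A S → Em P A S ι →
  Topology.IsEmbedding ι → (HolM ρ r (fun w => ι (f w)) ↔
    ∀ (e : Chart ρ W.X) y, At e y → HolAt X (fun z => f (e.symm z)) (e y))

/-- ROW SMX: restrictions of smooth functions -/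
def SMX : Prop := ∀ (r : ℕ) (P : PS r) (X : CSp) (A : Bd X.pt) (S : Fin (r + 1) → A.ι → X.pt → ℂ)
  (ι : X.pt → P.P.X) (u : X.pt → ℝ) (Ψ : P.P.X → ℝ) (x : X.pt), ProjEmb X A S → Em P A S ι →
  (∀ e : Chart r P.P.X, At e (ι x) →
    ∀ᶠ z in 𝓝 (e (ι x)), ContDiffAt ℝ ∞ (fun z => Ψ (e.symm z)) z) →
  (∀ᶠ y in 𝓝 x, u y = Ψ (ι y)) → Sm X u x

/-- ROW OUT -/
def OUT : Prop := ∀ (r : ℕ) (P : PS r) (X : CSp) (A : Bd X.pt) (S : Fin (r + 1) → A.ι → X.pt → ℂ)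
  (ι : X.pt → P.P.X) (L : Bd X.pt) (n : ℕ), ProjEmb X A S → Em P A S ι → IsLBx X L →
  Al P.P ι L → (∀ i, PO P.P ι ((L.pow i).mul (pull ι P.H)) univ) → NefE n X A S L

/-- **NFX** -/
def NFX : Prop := ∀ (n : ℕ) (Y : Mf n) (X : CSp) (L : Bd X.pt) (μ : Y.X → X.pt) (E : Bd Y.X)
  (s : E.ι → Y.X → ℂ), ConnectedSpace Y.X → St.SetupC n X L μ E s → Setup n X L μ E s

theorem nfx_of (kl : KL) (ps : Pb.PSEX) (plb : PLB) (inx : INX) (emb : EMB) (emh : EMH)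
    (out : OUT) : NFX := by
  intro n Y X L μ E s hc h
  obtain ⟨A, N, S, hA⟩ := h.proj
  obtain ⟨Z, hR, hZ⟩ := h.res
  refine ⟨h.two, h.normal, h.lb, ⟨A, N, S, hA, ?_⟩, h.div, Z, hR, hZ⟩
  rcases N with _ | r
  · obtain ⟨k, hk⟩ := hA.lb.cover (μ (Classical.arbitrary _))
    obtain ⟨a, -⟩ := hA.free _ k hk
    exact a.elim0
  obtain ⟨P⟩ := ps r
  obtain ⟨ι, e1, e2⟩ := emb r P X A S hA
  have al := e2 L h.lb
  refine out r P X A S ι L n hA e1 h.lb al fun i => ?_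
  have hμ := (emh r P X A S ι n Y μ hA e1 al.emb).2 hR.hol
  obtain ⟨ψ, m, p⟩ := inx r P.P X.pt ι L P.H i ⟨_, P.lb, P.pos⟩ al P.lb P.pos
    (fun ρ W f c pj hf => kl ρ W _ c pj (plb r P.P _ ι L ρ W f al hf).1 fun C g cC hg =>
      h.nef C.X (fun y => f (g y))
        ((emh r P X A S ι 1 C _ hA e1 al.emb).1
          (ContMDiff.comp (g := fun w => ι (f w)) (f := g) hf hg)))
    (n + 1) _ (.add Y _ (Nat.lt_succ_self n) hc hμ .nil) (by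
      rintro _ (⟨y, rfl⟩ | k)
      exacts [⟨_, rfl⟩, k.elim])
  refine ⟨ψ, m, fun x _ => p x (.inl ?_)⟩
  obtain ⟨y, rfl⟩ := hR.surj x
  exact ⟨y, rfl⟩

end Vale.Agent.P270N
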