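import Vale.Agent.P270N.Defs

/-!
# P270N, row EMH: holomorphic maps to a projective variety
-/

open scoped Manifold ContDiff Topology
open Set Filter
open Vale.Agent.P272.K Vale.Agent.P285.H281.FD Vale.Agent.P281Z Vale.Agent.P277
open Vale.Agent.P277Z (Hol at_chart)

namespace Vale.Agent.P270N

theorem emh53 : EMH := by
  intro r P X A S ι ρ W f hA hι he
  have nz : ∀ k x, x ∈ A.U k → (fun a => S a k x) ≠ 0 := fun k x hx h0 => by
    obtain ⟨a, ha⟩ := hA.free x k hx
    exact ha (congrFun h0 a)
  refine ⟨fun hf e y hy => ?_, fun hf y => ?_⟩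
  · have hc : Continuous f := he.continuous_iff.2 hf.cont
    refine ⟨ContinuousAt.comp hc.continuousAt (e.continuousAt_symm hy.mem_target), fun h hh => ?_⟩
    simp only [hy.left_inv] at hh
    obtain ⟨k, hk⟩ := hA.lb.cover (f y)
    obtain ⟨a, ha⟩ := hA.free _ k hk
    obtain ⟨G, hG, e1⟩ := hA.germ _ k a hk ha h hh
    obtain ⟨j, hj⟩ := P.lb.cover (ι (f y))
    have rt : ∀ x ∈ A.U k, ι x ∈ P.H.U j → ∃ c : ℂ, c ≠ 0 ∧ ∀ b, P.x j (ι x) b = c * S b k x :=
      fun x hx hx' => by
        have h1 := P.xnz j _ hx'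
        rw [hι k x hx] at hx' h1 ⊢
        obtain ⟨c, hc⟩ := P.x_pt _ (nz k x hx) j hx'
        exact ⟨c, fun h0 => h1 (by rw [hc, h0, zero_smul]), fun b => congrFun hc b⟩
    have h0 : P.x j (ι (f y)) a ≠ 0 := by
      obtain ⟨c, c0, hc⟩ := rt _ hk hj
      exact hc a ▸ mul_ne_zero c0 ha
    have h1 : ∀ b, Hol ρ (fun w => S b k (f w) / S a k (f w)) y := fun b => by
      have h2 := fun b => (hf.at y).hol (sec_hol (P.sec b) hj)
      refine (((h2 b).mul ((h2 a).inv h0))).congr ?_
      filter_upwards [hc.continuousAt.eventually ((hA.lb.isOpen k).mem_nhds hk),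
        hf.cont.continuousAt.eventually (lb_near P.lb hj)] with w m1 m2
      obtain ⟨c, c0, hc⟩ := rt _ m1 m2
      rw [hc, hc, ← div_eq_mul_inv, mul_div_mul_left _ _ c0]
    have h3 : AnalyticAt ℂ (fun z => G fun b => S b k (f (e.symm z)) / S a k (f (e.symm z))) (e y) :=
      AnalyticAt.comp (g := G) (by simpa only [hy.left_inv] using hG)
        (AnalyticAt.pi fun b => h1 b e hy)
    refine h3.congr ?_
    have h4 : Tendsto (fun z => f (e.symm z)) (𝓝 (e y)) (𝓝 (f y)) := by
      simpa only [Function.comp_def, hy.left_inv] using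
        (ContinuousAt.comp hc.continuousAt (e.continuousAt_symm hy.mem_target)).tendsto
    exact (h4.eventually e1).mono fun z k => k.symm
  · have hy := at_chart (n := ρ) y
    set e := chartAt (Cm ρ) y
    have h1 := hf e y hy
    have hc : ContinuousAt f y :=
      (h1.1.comp (e.continuousAt hy.2)).congr
        ((e.eventually_left_inverse hy.2).mono fun w k => congrArg f k)
    obtain ⟨k, hk⟩ := hA.lb.cover (f y)
    have hp := at_chart (n := r) (ι (f y))
    refine HolA.of_an (he.continuous.continuousAt.comp hc) hy hp ?_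
    have h2 : AnalyticAt ℂ (fun z a => S a k (f (e.symm z))) (e y) := AnalyticAt.pi fun a =>
      h1.2 _ (by simpa only [hy.left_inv] using (hA.sec a).holo k _ (mem_univ _) hk)
    have h3 := P.an _ (nz k _ hk) (chartAt (Cm r) (ι (f y))) (hι k _ hk ▸ hp)
    refine (AnalyticAt.comp (f := fun z a => S a k (f (e.symm z)))
      (by simpa only [hy.left_inv] using h3) h2).congr ?_
    have h4 : Tendsto (fun z => f (e.symm z)) (𝓝 (e y)) (𝓝 (f y)) := by
      simpa only [hy.left_inv] using h1.1.tendsto
    filter_upwards [h4.eventually ((hA.lb.isOpen k).mem_nhds hk)] with z m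
    simp only [Function.comp, hι k _ m]

end Vale.Agent.P270N
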