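import Vale.Agent.P270N.Defs
import Vale.Agent.P280X.Kl.Ind
import Vale.Agent.P280X.Kl.Rsv
import Vale.Agent.P280X.Kl.Thn
import Vale.Agent.P280X.Kl.Sec60

/-!
# P270N: row INX
-/

open Set Filter
open Vale.Agent.P272.K Vale.Agent.P285.H281.FD Vale.Agent.P281Z Vale.Agent.P280Z
open Vale.Agent.P277.HD (pull)
open Vale.Agent.P280X.Kl Vale.Agent.P280X.Kl.IndH

namespace Vale.Agent.P270N

theorem po_sub92 {n : ℕ} {V : Mf n} {X : Type} [TopologicalSpace X] {ι : X → V.X} {B : Bd X}
    {A A' : Set V.X} (h : PO V ι B A) (k : A' ⊆ A) : PO V ι B A' :=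
  let ⟨ψ, h1, h2⟩ := h
  ⟨ψ, h1, fun x hx => h2 x (k hx)⟩

theorem inx92 (plb : PLB) (alg : ALG) (mex : MEX) (stx : STX) : INX := by
  intro n V X _ ι L H i pV lL lH pH low d
  have lB := alg n V X ι L H i lL lH
  induction d with
  | zero =>
    intro A hA _
    cases hA with
    | nil => exact (mex n V X ι _ lB).imp fun ψ h => ⟨h, fun _ k => k.elim⟩
    | add F f a => exact absurd a (Nat.not_lt_zero _)
  | succ d ih =>
    intro A hA r
    suffices ∀ A', Cv V d A' → A' ⊆ range ι → PO V ι ((L.pow i).mul (pull ι H)) (A ∪ A') from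
      po_sub92 (this ∅ .nil (empty_subset _)) subset_union_left
    induction hA with
    | nil =>
      intro A' h' r'
      rw [empty_union]
      exact ih A' h' r'
    | @add e F f A₀ a b c h₀ ih' =>
      intro A' h' r'
      have ih'' := ih' (subset_union_right.trans r)
      by_cases k : range f ⊆ A₀ ∪ A'
      · exact po_sub92 (ih'' A' h' r')
          (union_subset (union_subset k subset_union_left) subset_union_right)
      obtain ⟨ρ, hρ, W, ν, Z, cW, pW, rs, s1, s2⟩ :=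
        rsv n e V F f _ pV b c ((an h₀).union (an h')) k
      choose ν' hν' using fun w => r (Or.inl (s2.le (mem_range_self w)))
      obtain rfl : (fun w => ι (ν' w)) = ν := funext hν'
      have hν := rs.ov.hol
      obtain ⟨w, hw⟩ := rs.ov.dense.nonempty
      obtain ⟨M, O, σ, k, dc, nz, zs⟩ := sec60 ρ n W V _ H ((fun w => ι (ν' w)) ⁻¹' Z) cW pW hν
        ⟨w, rs.ov.imm w hw⟩ lH pH ⟨rs.an.pre hν, rs.ov.dense⟩
      obtain ⟨A₁, c₁, s₃⟩ := thn_of rsv ρ W _ pW (thin dc.lO dc.sec nz)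
      have l0 := (plb n V X ι L ρ W ν' lL hν).1
      have l1 := lb_pow l0 (i * k)
      refine po_sub92 (stx ρ n W V X ι ν' Z _ _ _ O σ k lB rs
        ⟨(plb n V X ι _ ρ W ν' lB hν).1, lb_mul l1 dc.lM, dc.lO,
          low ρ W ν' cW pW hν M dc.lM dc.pos _, dc.sec, dc.kp, ?_⟩ zs
        (fun w h => .inr (.inr ⟨w, s₃ h, rfl⟩))
        (ih'' _ (union h' (mono (push hν c₁) (by omega))) (union_subset r' ?_))) ?_
      · refine (congrArg (k • ·) (cls_mul (lb_pow l0 i) (hν.lb lH))).trans ?_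
        rw [cls_mul l1 dc.lM, add_assoc, ← dc.cl, cls_pow l0, cls_pow l0, smul_add, smul_smul,
          mul_comm]
      · rintro _ ⟨w, -, rfl⟩
        exact mem_range_self _
      · rintro x ((h | h) | h)
        exacts [.inl (s2 ▸ h), .inr ⟨.inl h, s1 (.inl h)⟩, .inr ⟨.inr (.inl h), s1 (.inr h)⟩]

end Vale.Agent.P270N
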