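import Vale.Agent.P270N.Defs
import Vale.Agent.P280X.Kl.Step
import Vale.Agent.P277Z.Slc.Basic

/-!
# P270N: one stratum (row STX)
-/

open scoped Manifold ContDiff Topology Matrix ComplexOrder
open Set Filter
open Vale.Agent.P272.K Vale.Agent.P285.H281.FD Vale.Agent.P281Z
open Vale.Agent.P277Z.Slc (triv isLB_triv)
open Vale.Agent.P277.HD (pull)
open Vale.Agent.P280X.Kl

noncomputable section

namespace Vale.Agent.P270N

namespace StxH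

variable {n : ℕ} {V : Mf n} {X : Type} [TopologicalSpace X] {ι : X → V.X} {B : Bd X}
  {ψ ψ' : B.ι → X → ℝ} {x : X}

theorem met {Ψ : V.X → ℝ} (h : SmoothFn (n := n) Ψ) : IsMet n (triv V.X) fun _ => Ψ :=
  ⟨fun _ e x he _ => h e x he, fun _ _ _ _ _ => by simp [triv]⟩

theorem rt {u : X → ℝ} {Ψ g : V.X → ℝ} (h : Rt V ι u Ψ x) (hg : SmoothFn (n := n) g) :
    Rt V ι (fun y => u y + g (ι y)) (fun p => Ψ p + g p) x :=
  ⟨fun e x he => (h.1 e x he).add (hg e x he), h.2.mono fun y hy => congrArg (· + g (ι y)) hy⟩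

theorem add (h : Mt V ι B ψ) {g : V.X → ℝ} (hg : SmoothFn (n := n) g) :
    Mt V ι B fun i y => ψ i y + g (ι y) :=
  ⟨fun i x hi => (h.smooth i x hi).elim fun _ k => ⟨_, rt k hg⟩, fun i j x hi hj => by
    rw [h.change i j x hi hj]; ring⟩

theorem opn (hO : OPN) (hB : Al V ι B) (ψ : B.ι → X → ℝ) : IsOpen {x | Ps V ι B ψ x} := by
  refine isOpen_iff_mem_nhds.2 fun x ⟨i, Ψ, h1, h2, h3⟩ => ?_
  filter_upwards [(hB.isOpen i).mem_nhds h1, h2.2.eventually_nhds,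
    ((hO n V _ _ isLB_triv (met h2.1)).preimage hB.emb.continuous).mem_nhds h3] with y a b c
  exact ⟨i, Ψ, a, ⟨h2.1, b⟩, c⟩

theorem cng (h : Ps V ι B ψ x) (k : ∀ᶠ y in 𝓝 x, ∀ i, ψ' i y = ψ i y) : Ps V ι B ψ' x :=
  let ⟨i, Ψ, h1, h2, h3⟩ := h
  ⟨i, Ψ, h1, ⟨h2.1, (h2.2.and k).mono fun _ hy => (hy.2 i).trans hy.1⟩, h3⟩

theorem mn (hm : MIN) (h : Ps V ι B ψ x) {R : V.X → ℝ} (h1 : SmoothFn (n := n) R)
    (h2 : ∀ y, 0 ≤ R y) (h3 : R (ι x) = 0) : Ps V ι B (fun i y => ψ i y + R (ι y)) x :=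
  let ⟨i, _, k1, k2, k3⟩ := h
  ⟨i, _, k1, rt k2 h1, hm n V _ _ R _ isLB_triv (met k2.1) h1 h2 h3 k3⟩

end StxH

open StxH in
/-- row STX -/
theorem stx_of (hP : PLB) (hO : OPN) (hm : MIN) (hM : MAXG) (hE : EXT) (hL : LOC) : STX := by
  classical
  rintro ρ n W V X _ ι ν Z S B M O σ k hB hR hD h1 h2 ⟨ψ, hψ, hS⟩
  have hν := hR.ov.hol
  have cν : Continuous ν := hB.emb.continuous_iff.2 hν.cont
  have oU := opn hO hB ψ
  obtain ⟨m1, m2⟩ := (hP n V X ι B ρ W ν hB hν).2 ψ hψ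
  obtain ⟨g, g1, g2, g3⟩ := hM ρ W _ M O σ k _ (ν ⁻¹' {x | Ps V ι B ψ x}) hD m1
    (oU.preimage cν) fun w hw => hS _ (h2 w hw)
  obtain ⟨G, G1, G2, G3⟩ := hE ρ n W V _ Z g hR g1 fun w hw => g2 w (h1 w hw)
  have hφ := add hψ G1
  have ne : ∀ {x} {R : V.X → ℝ}, (∀ᶠ y in 𝓝 (ι x), R y = 0) → ∀ᶠ y in 𝓝 x, R (ι y) = 0 :=
    fun h => hB.emb.continuous.continuousAt.eventually h
  have oN : IsOpen {x | Ps V ι B ψ x ∧ ∀ᶠ y in 𝓝 x, G (ι y) = 0} :=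
    oU.inter isOpen_setOfPred_eventually_nhds
  have pN : ∀ x, Ps V ι B ψ x → (∀ᶠ y in 𝓝 x, G (ι y) = 0) →
      Ps V ι B (fun i y => ψ i y + G (ι y)) x := fun x k1 k2 =>
    cng k1 (k2.mono fun y hy i => by rw [hy, add_zero])
  have cK : IsCompact (range ν \ {x | Ps V ι B ψ x ∧ ∀ᶠ y in 𝓝 x, G (ι y) = 0}) :=
    (isCompact_range cν).diff oN
  have key : ∀ x ∈ range ν \ {x | Ps V ι B ψ x ∧ ∀ᶠ y in 𝓝 x, G (ι y) = 0},
      ∃ R : V.X → ℝ, SmoothFn (n := n) R ∧ (∀ x ∈ Z, ∀ᶠ y in 𝓝 x, R y = 0) ∧ (∀ x, 0 ≤ R x) ∧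
        (∀ y, R (ι (ν y)) = 0) ∧ Ps V ι B (fun i y => ψ i y + G (ι y) + R (ι y)) x := by
    rintro _ ⟨⟨w, rfl⟩, hw⟩
    have hZ : ι (ν w) ∉ Z := fun c => hw ⟨hS _ (h2 w (h1 w c)), ne (G3 _ c)⟩
    have p : PosAt ρ (pull ν B) (fun i y => ψ i (ν y) + g y) w := by
      by_cases c : NZ O σ w
      · exact g3 w c (m2 w (hR.ov.imm w hZ))
      · exact StepH.cng (m2 w (hR.ov.imm w hZ) (hS _ (h2 w c)))
          ((g2 w c).mono fun y hy i => by rw [hy, add_zero])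
    obtain ⟨i, hi⟩ := hB.cover (ν w)
    obtain ⟨Ψ, r⟩ := hφ.smooth i _ hi
    obtain ⟨R, a1, a2, a3, a4, a5⟩ := hL ρ n W V _ Z _ _ w hR isLB_triv (met r.1) hZ
      fun _ e he _ => by
        have q : (fun z => Ψ (ι (ν (e.symm z)))) =ᶠ[𝓝 (e w)]
            fun z => ψ i (ν (e.symm z)) + g (e.symm z) :=
          ((StepH.tend he).eventually (cν.continuousAt.eventually r.2)).mono fun z hz =>
            hz.symm.trans (congrArg (ψ i (ν (e.symm z)) + ·) (G2 _))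
        have t : cHess (fun z => Ψ (ι (ν (e.symm z)))) (e w) =
            cHess (fun z => ψ i (ν (e.symm z)) + g (e.symm z)) (e w) := P272.K.cHess_congr q
        exact t ▸ p i e he hi
    exact ⟨R, a1, a2, a3, a4, i, _, hi, rt r a1, a5⟩
  choose! R R1 R2 R3 R4 R5 using key
  obtain ⟨t, t1, t2⟩ := cK.elim_nhds_subcover
    (fun x => {y | Ps V ι B (fun i y => ψ i y + G (ι y) + R x (ι y)) y}) fun x hx =>
      (opn hO hB _).mem_nhds (R5 x hx)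
  have sm : ∀ s ⊆ t, SmoothFn (n := n) fun y => ∑ x ∈ s, R x y := fun s hs e y he =>
    ContDiffAt.sum fun x hx => R1 x (t1 x (hs hx)) e y he
  have nn : ∀ s ⊆ t, ∀ y, 0 ≤ ∑ x ∈ s, R x y := fun s hs y =>
    Finset.sum_nonneg fun x hx => R3 x (t1 x (hs hx)) y
  have zz : ∀ s ⊆ t, ∀ w, ∑ x ∈ s, R x (ι (ν w)) = 0 := fun s hs w =>
    Finset.sum_eq_zero fun x hx => R4 x (t1 x (hs hx)) w
  refine ⟨_, add hφ (sm t subset_rfl), ?_⟩
  rintro x (⟨w, hw⟩ | ⟨x1, x2⟩)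
  · obtain rfl := hB.emb.injective hw
    by_cases c : ν w ∈ {x | Ps V ι B ψ x ∧ ∀ᶠ y in 𝓝 x, G (ι y) = 0}
    · exact mn hm (pN _ c.1 c.2) (sm t subset_rfl) (nn t subset_rfl) (zz t subset_rfl w)
    · obtain ⟨x, hx, k⟩ := mem_iUnion₂.1 (t2 ⟨⟨w, rfl⟩, c⟩)
      have s := Finset.erase_subset x t
      refine cng (mn hm k (sm _ s) (nn _ s) (zz _ s w)) (.of_forall fun y i => ?_)
      rw [← Finset.add_sum_erase t _ hx, add_assoc (ψ i y + G (ι y))]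
  · refine cng (pN x (hS x x1) (ne (G3 _ x2))) ?_
    filter_upwards [(eventually_all_finset t).2 fun z hz => ne (R2 z (t1 z hz) _ x2)] with y hy i
    rw [Finset.sum_eq_zero hy, add_zero]

end Vale.Agent.P270N
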