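import Vale.Agent.P280X.Kl.Rsv
import Vale.Agent.P280X.Kl.Thn
import Vale.Agent.P280X.Kl.Sec60
import Vale.Agent.P280X.Kl.Opn
import Vale.Agent.P280X.Kl.Ext
import Vale.Agent.P280X.Kl.Step
import Vale.Agent.P280X.Kl.Ind
import Vale.Agent.P280X.Kl.Nk
import Vale.Agent.P280X.Kl.Num
import Vale.Agent.P280X.Kl.Impr
import Vale.Agent.P280X.Kl.Maxg84
import Vale.Agent.P280X.Kl.Loc15
import Vale.Agent.P270N.Stx

/-!
# P270N: the closed inputs
-/

open Vale.Agent.P280X.Kl

noncomputable section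

namespace Vale.Agent.P270N

theorem klm : KL :=
  kl_of (impr_of num (nk_of (thn_of rsv)
    (ind_of rsv (thn_of rsv) sec60 (step_of opn P280X.Kl.min maxg84 ext loc15)) opn maxg84))

theorem stx (h : PLB) : STX := stx_of h opn P280X.Kl.min maxg84 ext loc15

end Vale.Agent.P270N
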