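import Vale.Agent.P270N.Defs
import Vale.Agent.P272.K.INT.Part

/-!
# P270N, row MEX: metrics exist
-/

open scoped Manifold ContDiff Topology
open Set Filter
open Vale.Agent.P272.K Vale.Agent.P285.H281.FD Vale.Agent.P281Z
open Vale.Agent.P277Z (Hol at_chart)

noncomputable section

namespace Vale.Agent.P270N

namespace Mex16

variable {n : ℕ} {V : Mf n} {p : V.X}

theorem cm {G : V.X → ℂ} (h : Hol n G p) (h0 : G p ≠ 0) :
    ContMDiffAt 𝓘(ℝ, Cm n) 𝓘(ℝ, ℝ) ∞ (fun y => Real.log (‖G y‖ ^ 2)) p := by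
  have := INT.isManifold_real n V.X
  have he := at_chart (n := n) p
  have h2 := ((((h _ he).contDiffAt (n := ∞)).restrict_scalars ℝ).norm_sq ℂ).log
    (by rw [he.left_inv]; exact pow_ne_zero 2 (norm_ne_zero_iff.2 h0))
  have h3 : ContMDiffAt 𝓘(ℝ, Cm n) 𝓘(ℝ, Cm n) ∞ (chartAt (Cm n) p) p :=
    (contMDiffOn_of_mem_maximalAtlas (IsManifold.subset_maximalAtlas he.1)).contMDiffAt
      ((chartAt (Cm n) p).open_source.mem_nhds he.2)
  refine ((contMDiffAt_iff_contDiffAt.2 h2).comp p h3).congr_of_eventuallyEq ?_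
  filter_upwards [at_near he] with y k1
  simp only [Function.comp_apply, k1.left_inv]

/-- smooth germs extend -/
theorem glob {u : V.X → ℝ} (h : ∀ᶠ y in 𝓝 p, ContMDiffAt 𝓘(ℝ, Cm n) 𝓘(ℝ, ℝ) ∞ u y) :
    ∃ Ψ, SmoothFn (n := n) Ψ ∧ ∀ᶠ y in 𝓝 p, u y = Ψ y := by
  have := INT.isManifold_real n V.X
  obtain ⟨K, k1, k2, k3⟩ := exists_mem_nhds_isClosed_subset h.eventually_nhds
  obtain ⟨G, hG⟩ := exists_contMDiffMap_forall_mem_convex_of_local (n := ⊤) 𝓘(ℝ, Cm n)
    (t := fun x : V.X => {r : ℝ | x ∈ K → u x = r}) (fun x => by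
      intro a ha b hb s t _ _ st hx
      rw [← ha hx, ← hb hx, ← add_smul, st, one_smul]) fun x => by
      by_cases hx : x ∈ K
      · exact ⟨_, k3 hx, u, fun y k => ContMDiffAt.contMDiffWithinAt k, fun _ _ _ => rfl⟩
      · exact ⟨_, k2.isOpen_compl.mem_nhds hx, fun _ => 0, contMDiffOn_const,
          fun y k l => (k l).elim⟩
  exact ⟨G, INT.smoothFn_of_contMDiff G.contMDiff, mem_of_superset k1 fun y k => hG y k⟩

end Mex16

theorem mex16 : MEX := by
  intro n V X _ ι L hL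
  classical
  have := INT.isManifold_real n V.X
  have := hL.cpt
  have hc := hL.emb.continuous
  obtain ⟨t, ht⟩ := isCompact_univ.elim_finite_subcover L.U hL.isOpen
    fun x _ => mem_iUnion.2 (hL.cover x)
  choose O hO eO using fun i => hL.emb.isInducing.isOpen_iff.1 (hL.isOpen i)
  obtain ⟨f, hf⟩ := SmoothPartitionOfUnity.exists_isSubordinate 𝓘(ℝ, Cm n)
    (isCompact_range hc).isClosed (fun j : t => O j) (fun j => hO j) (by
      rintro _ ⟨x, rfl⟩
      obtain ⟨j, hj, k⟩ := mem_iUnion₂.1 (ht (mem_univ x))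
      exact mem_iUnion.2 ⟨⟨j, hj⟩, by rwa [← eO] at k⟩)
  have z : ∀ (j : t) x, x ∉ L.U j → ∀ᶠ p in 𝓝 (ι x), f j p = 0 := fun j x hx =>
    notMem_tsupport_iff_eventuallyEq.1 fun k => hx (by rw [← eO]; exact hf j k)
  refine ⟨fun i y => ∑ j : t, f j (ι y) * Real.log (‖L.g i j y‖ ^ 2), fun i x hi => ?_,
    fun i i' x hi hi' => ?_⟩
  · have key : ∀ j : t, ∃ G : V.X → ℝ,
        (∀ᶠ p in 𝓝 (ι x), ContMDiffAt 𝓘(ℝ, Cm n) 𝓘(ℝ, ℝ) ∞ G p) ∧
        ∀ᶠ y in 𝓝 x, f j (ι y) * Real.log (‖L.g i j y‖ ^ 2) = G (ι y) := by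
      intro j
      by_cases hj : x ∈ L.U j
      · obtain ⟨H, h1, h2⟩ := hL.holo i j x hi hj
        have h3 : H (ι x) ≠ 0 := fun c => hL.ne_zero i j x hi hj (h2.self_of_nhds.trans c)
        refine ⟨fun p => f j p * Real.log (‖H p‖ ^ 2), ?_, ?_⟩
        · filter_upwards [h1.near, h1.cont.eventually_ne h3] with p k1 k2
          exact ((f j).contMDiff p).mul (Mex16.cm k1 k2)
        · filter_upwards [h2] with y k1
          rw [k1]
      · refine ⟨fun _ => 0, Eventually.of_forall fun _ => contMDiffAt_const, ?_⟩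
        filter_upwards [hc.continuousAt.eventually (z j x hj)] with y k
        rw [k, zero_mul]
    choose G g1 g2 using key
    obtain ⟨Ψ, p1, p2⟩ := Mex16.glob (u := fun p => ∑ j, G j p) (p := ι x) (by
      filter_upwards [eventually_all.2 g1] with p k using contMDiffAt_finsetSum fun j _ => k j)
    refine ⟨Ψ, p1, ?_⟩
    filter_upwards [eventually_all.2 g2, hc.continuousAt.eventually p2] with y k k'
      using (Finset.sum_congr rfl fun j _ => k j).trans k'
  · have s := f.sum_eq_one (mem_range_self x)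
    rw [finsum_eq_sum_of_fintype] at s
    rw [← one_mul (Real.log (‖L.g i i' x‖ ^ 2)), ← s, Finset.sum_mul, ← Finset.sum_add_distrib]
    refine Finset.sum_congr rfl fun j _ => ?_
    by_cases hj : x ∈ L.U j
    · rw [← hL.cocycle i i' j x hi hi' hj, norm_mul, mul_pow, Real.log_mul
        (pow_ne_zero 2 (norm_ne_zero_iff.2 (hL.ne_zero _ _ x hi hi')))
        (pow_ne_zero 2 (norm_ne_zero_iff.2 (hL.ne_zero _ _ x hi' hj)))]
      ring
    · rw [(z j x hj).self_of_nhds]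
      ring

end Vale.Agent.P270N
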