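import Vale.Agent.P270N.Defs
import Vale.Agent.P285L.Upb32

/-!
# P270N: row OUT
-/

open scoped Manifold ContDiff Topology Matrix ComplexOrder
open Set Filter Real
open Vale.Agent.P272.K Vale.Agent.P285.H281.FD Vale.Agent.P281Z Vale.Agent.P277
open Vale.Agent.P277.HD (pull)
open Vale.Agent.P280X.Kl
open Vale.Agent.P285L.St
open Vale.Agent.P284Z (levi cHess_psd_iff)
open Vale.Agent.P284Y.Lib

noncomputable section

namespace Vale.Agent.P270N

namespace Out2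

variable {r : ℕ} (P : PS r)

/-- the weight of the Fubini-Study metric -/
def F (h : P.H.ι) (p : P.P.X) : ℝ := log (∑ a, ‖P.x h p a‖ ^ 2)

theorem scal {c : ℂ} (hc : c ≠ 0) {v : Cm (r + 1)} (hv : v ≠ 0) :
    log (∑ a, ‖c * v a‖ ^ 2) = log (∑ a, ‖v a‖ ^ 2) + log (‖c‖ ^ 2) := by
  have p : 0 < ∑ a, ‖v a‖ ^ 2 :=
    P277Z.Ps.sq_pos (n := 0) (f := fun m _ => v m) (z := 0) (Function.ne_iff.1 hv)
  have q := norm_pos_iff.2 hc
  simp only [norm_mul, mul_pow]
  rw [← Finset.mul_sum, log_mul (by positivity) p.ne', add_comm]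

theorem chg {h h' : P.H.ι} {p : P.P.X} (a : p ∈ P.H.U h) (b : p ∈ P.H.U h') :
    F P h p = F P h' p + log (‖P.H.g h h' p‖ ^ 2) := by
  rw [F, F, ← scal (P.lb.ne_zero h h' p a b) (P.xnz h' p b)]
  exact congrArg log (Finset.sum_congr rfl fun c _ => by rw [(P.sec c).change h h' p a b])

theorem lg {a b : ℂ} (ha : a ≠ 0) (hb : b ≠ 0) (m : ℕ) :
    log (‖a ^ m * b‖ ^ 2) = m * log (‖a‖ ^ 2) + log (‖b‖ ^ 2) := by
  have p := norm_pos_iff.2 ha
  have q := norm_pos_iff.2 hb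
  rw [norm_mul, mul_pow, log_mul (by rw [norm_pow]; positivity) (by positivity), norm_pow,
    ← pow_mul, mul_comm m 2, pow_mul, log_pow]

theorem xan {h : P.H.ι} {e : Chart r P.P.X} {p : P.P.X} (he : At e p) (hp : p ∈ P.H.U h)
    (a : Fin (r + 1)) : AnalyticAt ℂ (fun z => P.x h (e.symm z) a) (e p) :=
  ((P.sec a).holo h e p he hp).analyticAt

theorem Fsm {h : P.H.ι} {e : Chart r P.P.X} {p : P.P.X} (he : At e p) (hp : p ∈ P.H.U h) :
    ContDiffAt ℝ ∞ (fun z => F P h (e.symm z)) (e p) :=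
  P277Z.Ps.sm_log (f := fun a z => P.x h (e.symm z) a) (xan P he hp) (by
    rw [e.left_inv he.2]
    exact Function.ne_iff.1 (P.xnz h p hp))

end Out2

open Out2 in
theorem out_of (smx : SMX) : OUT := by
  intro r P X A S ι L n hA em hL al po δ hδ
  obtain ⟨m, hm⟩ := exists_nat_gt (1 / δ)
  have m0 : (0 : ℝ) < m := (one_div_pos.2 hδ).trans hm
  have md : 0 ≤ δ - (m : ℝ)⁻¹ := by
    rw [sub_nonneg, inv_le_comm₀ m0 hδ, ← one_div]
    exact hm.le
  obtain ⟨ψ, mt, ps⟩ := po m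
  choose h hh using fun x => P.lb.cover (ι x)
  have ci := al.emb.continuous
  have ind : ∀ i j k x, x ∈ L.U i → x ∈ L.U j → ι x ∈ P.H.U k →
      (m : ℝ)⁻¹ * (ψ (i, h x) x - F P (h x) (ι x)) =
        (m : ℝ)⁻¹ * (ψ (j, k) x - F P k (ι x)) + log (‖L.g i j x‖ ^ 2) := by
    intro i j k x a b c
    have e := mt.change (i, h x) (j, k) x ⟨a, hh x⟩ ⟨b, c⟩
    have e' : log (‖((L.pow m).mul (pull ι P.H)).g (i, h x) (j, k) x‖ ^ 2) = _ :=
      lg (hL.ne_zero i j x a b) (P.lb.ne_zero (h x) k _ (hh x) c) m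
    rw [e, e', chg P (hh x) c]
    field_simp
    ring
  refine ⟨fun i x => (m : ℝ)⁻¹ * (ψ (i, h x) x - F P (h x) (ι x)), fun i x hx => ?_,
    fun i j x a b => ind i j (h x) x a b (hh x), fun i k g z hg _ hi hk => ?_⟩
  · obtain ⟨Ψ, s1, s2⟩ := mt.smooth (i, h x) x ⟨hx, hh x⟩
    refine smx r P X A S ι _ (fun p => (m : ℝ)⁻¹ * (Ψ p - F P (h x) p)) x hA em (fun e he => ?_) ?_
    · have c1 : ContinuousAt e.symm (e (ι x)) := e.continuousAt_symm (e.map_source he.2)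
      have c2 : P.H.U (h x) ∈ 𝓝 (e.symm (e (ι x))) := by
        rw [e.left_inv he.2]
        exact (P.lb.isOpen _).mem_nhds (hh x)
      filter_upwards [e.open_target.mem_nhds (e.map_source he.2), c1.eventually_mem c2] with z a b
      have k : At e (e.symm z) := ⟨he.1, e.map_target a⟩
      have k1 := s1 e _ k
      have k2 := Fsm P k b
      rw [e.right_inv a] at k1 k2
      exact contDiffAt_const.mul (k1.sub k2)
    · filter_upwards [s2, (hL.isOpen i).mem_nhds hx,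
        ci.continuousAt.eventually_mem ((P.lb.isOpen _).mem_nhds (hh x))] with y a b c
      have e1 : L.g i i y = 1 := mul_left_cancel₀ (hL.ne_zero i i y b b)
        ((hL.cocycle i i i y b b b).trans (mul_one _).symm)
      rw [ind i i (h x) y b b c, a, e1]
      simp
  obtain ⟨⟨j, k'⟩, Ψ, ⟨hj, hk'⟩, ⟨s1, s2⟩, s3⟩ := ps (g z) trivial
  obtain ⟨a0, ha0⟩ := hA.free _ k hk
  set e : Chart r P.P.X := chartAt (Cm r) (ι (g z))
  have he : At e (ι (g z)) := ⟨chart_mem_atlas _ _, mem_chart_source _ _⟩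
  have b1 : ∀ a, AnalyticAt ℂ (fun w => S a k (g w)) z := fun a =>
    hg.analyticAt ((hA.sec a).holo k _ trivial hk)
  have v0 : (fun a => S a k (g z)) ≠ 0 := fun q => ha0 (congrFun q a0)
  have nk : ∀ᶠ w in 𝓝 z, g w ∈ A.U k := hg.1.eventually_mem ((hA.lb.isOpen k).mem_nhds hk)
  have b2 : AnalyticAt ℂ (fun w => e (ι (g w))) z := by
    have q := (P.an _ v0 e (em k _ hk ▸ he)).comp_of_eq (AnalyticAt.pi b1) rfl
    exact q.congr (nk.mono fun w hw => by simp only [Function.comp, em k _ hw])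
  have cg : ContinuousAt (fun w => ι (g w)) z := ci.continuousAt.comp hg.1
  have ns : ∀ᶠ w in 𝓝 z, e.symm (e (ι (g w))) = ι (g w) :=
    (cg.eventually_mem (e.open_source.mem_nhds he.2)).mono fun w hw => e.left_inv hw
  have b3 : AnalyticAt ℂ (fun w => P.x k' (ι (g w)) a0 / S a0 k (g w)) z :=
    (((xan P he hk' a0).comp_of_eq b2 rfl).congr
      (ns.mono fun w hw => by simp only [Function.comp, hw])).fun_div (b1 a0) ha0
  have key : ∀ y, y ∈ A.U k → ι y ∈ P.H.U k' → S a0 k y ≠ 0 → P.x k' (ι y) a0 / S a0 k y ≠ 0 ∧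
      F P k' (ι y) = log (∑ a, ‖S a k y‖ ^ 2) + 2 * log ‖P.x k' (ι y) a0 / S a0 k y‖ := by
    intro y a b c
    have v1 : (fun a => S a k y) ≠ 0 := fun q => c (congrFun q a0)
    obtain ⟨t, ht⟩ := P.x_pt _ v1 k' (em k y a ▸ b)
    rw [← em k y a] at ht
    have t0 : t ≠ 0 := fun q => P.xnz k' _ b (by rw [ht, q, zero_smul])
    have t1 : P.x k' (ι y) a0 / S a0 k y = t := by
      rw [ht, Pi.smul_apply, smul_eq_mul, mul_div_cancel_right₀ _ c]
    rw [t1]
    unfold F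
    rw [ht]
    refine ⟨t0, (scal t0 v1).trans ?_⟩
    rw [log_pow]
    rfl
  have b4 : AnalyticAt ℂ (fun w => L.g i j (g w)) z := hg.analyticAt (hL.holo i j _ hi hj)
  obtain ⟨c1, c2⟩ := P277Z.Pos.log_norm_c2 b3 (key _ hk hk' ha0).1
  obtain ⟨c3, c4⟩ := P277Z.Pos.log_norm_c2 b4 (hL.ne_zero i j _ hi hj)
  have c5 := P277Z.Ps.two (P277Z.Ps.sm_log b1 ⟨a0, ha0⟩)
  have c6 := (cHess_psd_iff c5).1 (P277Z.Ps.psd_log b1 ⟨a0, ha0⟩)
  have c7 := P277Z.Ps.two (s1 e _ he)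
  have c8 := (cHess_psd_iff c7).1 (s3 () e he trivial).posSemidef
  have c9 : ContDiffAt ℝ 2 (fun w => Ψ (e.symm (e (ι (g w))))) z :=
    ContDiffAt.comp (g := fun y => Ψ (e.symm y)) (f := fun w => e (ι (g w))) z c7
      ((b2.contDiffAt (n := 2)).restrict_scalars ℝ)
  have ev : (fun w => (m : ℝ)⁻¹ * (ψ (i, h (g w)) (g w) - F P (h (g w)) (ι (g w))) +
      δ * log (∑ a, ‖S a k (g w)‖ ^ 2)) =ᶠ[𝓝 z] fun w =>
      ((m : ℝ)⁻¹ * Ψ (e.symm (e (ι (g w)))) + (δ - (m : ℝ)⁻¹) * log (∑ a, ‖S a k (g w)‖ ^ 2)) +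
        (2 * log ‖L.g i j (g w)‖ +
          (-2 * (m : ℝ)⁻¹) * log ‖P.x k' (ι (g w)) a0 / S a0 k (g w)‖) := by
    filter_upwards [nk, ns, hg.1.eventually s2, hg.1.eventually_mem ((hL.isOpen i).mem_nhds hi),
      hg.1.eventually_mem ((hL.isOpen j).mem_nhds hj),
      cg.eventually_mem ((P.lb.isOpen k').mem_nhds hk'),
      (b1 a0).continuousAt.eventually_ne ha0] with w a1 a2 a3 a4 a5 a6 a7
    rw [ind i j k' _ a4 a5 a6, a2, a3, (key _ a1 a6 a7).2, log_pow]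
    push_cast
    ring
  have d1 := contDiffAt_const (c := (m : ℝ)⁻¹).mul c9
  have d2 := contDiffAt_const (c := δ - (m : ℝ)⁻¹).mul c5
  have d3 := contDiffAt_const (c := (2 : ℝ)).mul c3
  have d4 := contDiffAt_const (c := -2 * (m : ℝ)⁻¹).mul c1
  refine (cHess_psd_iff (((d1.add d2).add (d3.add d4)).congr_of_eventuallyEq ev)).2 fun v => ?_
  rw [levi_congr ev, levi_add (d1.add d2) (d3.add d4), levi_add d1 d2, levi_add d3 d4,
    levi_const_mul c9, levi_const_mul c5, levi_const_mul c3, levi_const_mul c1, c2, c4,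
    levi_hol (u := fun y => Ψ (e.symm y)) b2 c7]
  have := mul_nonneg md (c6 v)
  have := mul_nonneg (inv_pos.2 m0).le (c8 (fderiv ℂ (fun w => e (ι (g w))) z v))
  linarith

end Vale.Agent.P270N
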