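import Vale.Agent.P285L.Stmt

/-!
# P270N: nef line bundles on normal projective varieties (definitions used by the statements)
-/

open scoped Manifold ContDiff Topology ComplexOrder
open Vale.Agent.P272.K Vale.Agent.P285.H281.FD Vale.Agent.P277 Vale.Agent.P285Z.St Set
open Vale.Agent.P285L.St
open Vale.Agent.P285S.St (back)
open Vale.Agent.P285.R2.H80 (Positive)

namespace Vale.Agent.P270N.St

/-- `L` is nef: there is no holomorphic map `f` from a connected compact Riemann surface to `X`
such that `f^* L` has negative degree, that is such that the dual of `f^* L` is positive. -/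
def NefC (X : CSp) (L : Bd X.pt) : Prop :=
  ∀ (C : Type) [TopologicalSpace C] [ChartedSpace (Cm 1) C] [IsManifold 𝓘(ℂ, Cm 1) ω C]
    [T2Space C] [CompactSpace C] [ConnectedSpace C] (f : C → X.pt),
    (∀ (e : Chart 1 C) y, At e y → HolAt X (fun z => f (e.symm z)) (e y)) →
    ¬ Positive 1 (Bd.inv (back f L))

variable (n : ℕ) {Y : Type} [TopologicalSpace Y] [ChartedSpace (Cm n) Y]

/-- `X` is a normal projective variety of dimension `n ≥ 2`, `L` is a nef line bundle on `X`,
`μ : Y → X` is a resolution and `E = div s` is an effective exceptional divisor on `Y`. -/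
structure SetupC (X : CSp) (L : Bd X.pt) (μ : Y → X.pt) (E : Bd Y) (s : E.ι → Y → ℂ) : Prop where
  two : 2 ≤ n
  normal : IsNormal n X
  proj : ∃ (A : Bd X.pt) (N : ℕ) (S : Fin N → A.ι → X.pt → ℂ), ProjEmb X A S
  lb : IsLBx X L
  nef : NefC X L
  div : Divisor n E s
  res : ∃ Z, IsRes n X μ Z ∧ ∀ i y, y ∈ E.U i → s i y = 0 → μ y ∈ Z

end Vale.Agent.P270N.St
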